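import Vale.Agent.P234.Bd3.B3

/-!
# Short segments and the smooth squared distance on a compact Riemannian manifold

Packaging of the near exponential map of `Vale.Agent.P234` for the closed geodesic problem.
-/

set_option maxSynthPendingDepth 3
set_option linter.unusedSectionVars false

open Bundle Manifold Set Filter
open scoped ContDiff Manifold Topology
open Vale.Agent.P234

namespace Vale.Agent.P216.Geo

noncomputable section

section Near

variable {E : Type*} [NormedAddCommGroup E] [NormedSpace ℝ E] [FiniteDimensional ℝ E]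
  {M : Type*} [MetricSpace M] [ChartedSpace E M]
  [RiemannianBundle (fun x : M => TangentSpace 𝓘(ℝ, E) x)]
  [IsManifold 𝓘(ℝ, E) ∞ M]
  [IsContMDiffRiemannianBundle 𝓘(ℝ, E) ∞ E (fun x : M => TangentSpace 𝓘(ℝ, E) x)]
  {ε : ℝ} {e₀ : ∀ x : M, TangentSpace 𝓘(ℝ, E) x → M} {L : ∀ x : M, M → TangentSpace 𝓘(ℝ, E) x}

/-- The squared distance is smooth near the diagonal. -/
theorem smooth_cost (h : NearExp ε e₀ L) {x y : M} (hxy : dist x y < ε) :
    ContMDiffAt (𝓘(ℝ, E).prod 𝓘(ℝ, E)) 𝓘(ℝ, ℝ) ∞ (fun q : M × M => cost q.1 q.2) (x, y) := by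
  have h4 := h.smooth_log x y hxy
  have h5 : ContMDiffAt (𝓘(ℝ, E).prod 𝓘(ℝ, E)) 𝓘(ℝ, ℝ) ∞
      (fun q : M × M => inner ℝ (L q.1 q.2) (L q.1 q.2)) (x, y) :=
    ContMDiffAt.inner_bundle h4 h4
  have h6 : ContMDiffAt (𝓘(ℝ, E).prod 𝓘(ℝ, E)) 𝓘(ℝ, ℝ) ∞
      (fun q : M × M => (1 / 2 : ℝ) * inner ℝ (L q.1 q.2) (L q.1 q.2)) (x, y) :=
    (contMDiffAt_const (c := (1 / 2 : ℝ))).mul h5
  refine h6.congr_of_eventuallyEq ?_
  have h8 : ∀ᶠ q : M × M in 𝓝 (x, y), dist q.1 q.2 < ε :=
    (continuous_dist.tendsto (x, y)).eventually (gt_mem_nhds hxy)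
  filter_upwards [h8] with q hq
  rw [cost, ← h.norm_log q.1 q.2 hq, real_inner_self_eq_norm_sq]
  ring

/-- The squared distance is smooth near the diagonal. -/
theorem smooth_dist_sq (h : NearExp ε e₀ L) {x y : M} (hxy : dist x y < ε) :
    ContMDiffAt (𝓘(ℝ, E).prod 𝓘(ℝ, E)) 𝓘(ℝ, ℝ) ∞ (fun q : M × M => dist q.1 q.2 ^ 2) (x, y) := by
  have h1 := (contMDiffAt_const (c := (2 : ℝ))).mul (smooth_cost h hxy)
  refine h1.congr_of_eventuallyEq (Filter.Eventually.of_forall fun q => ?_)
  simp only [Pi.mul_apply, cost]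
  ring

theorem smooth_cost_left (h : NearExp ε e₀ L) {x y : M} (hxy : dist x y < ε) :
    ContMDiffAt 𝓘(ℝ, E) 𝓘(ℝ, ℝ) ∞ (fun z : M => cost z y) x := by
  have h3 : ContMDiffAt 𝓘(ℝ, E) (𝓘(ℝ, E).prod 𝓘(ℝ, E)) ∞ (fun z : M => (z, y)) x :=
    contMDiffAt_id.prodMk contMDiffAt_const
  exact ContMDiffAt.comp (g := fun q : M × M => cost q.1 q.2) (f := fun z : M => (z, y)) x
    (smooth_cost h hxy) h3

/-- The gradient of the cost is minus the logarithm. -/
theorem grad_cost (h : NearExp ε e₀ L) {x y : M} (hxy : dist x y < ε)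
    (w : TangentSpace 𝓘(ℝ, E) x) :
    dfun (fun z : M => cost z y) x w = -(inner ℝ (L x y) w) := by
  refine exCanon_grad_point (f := e₀ x) h.pos (h.exp_zero x) (fun v hv => h.dist_exp x hv) ?_
    ((smooth_cost_left h hxy).mdifferentiableAt (by simp)) ?_ (fun w => h.velocity x w) w
  · intro t ht
    have h1 := h.ray x (L x y) (by rw [h.norm_log x y hxy]; exact hxy) t ht 1
      (right_mem_Icc.2 zero_le_one)
    rw [one_smul, h.exp_log x y hxy] at h1
    rw [h1, abs_of_nonneg (by linarith only [ht.2])]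
  · intro w
    have h1 : ContMDiffAt 𝓘(ℝ, E).tangent 𝓘(ℝ, E) ∞
        (fun p : TangentBundle 𝓘(ℝ, E) M => e₀ p.proj p.snd)
        (⟨x, (0 : ℝ) • w⟩ : TangentBundle 𝓘(ℝ, E) M) := by
      refine h.smooth _ ?_
      show ‖(0 : ℝ) • w‖ < ε
      rw [zero_smul, norm_zero]
      exact h.pos
    have h2 := exCanon_contMDiff_fiber x w 0
    exact (ContMDiffAt.comp (g := fun p : TangentBundle 𝓘(ℝ, E) M => e₀ p.proj p.snd)
      (0 : ℝ) h1 h2).mdifferentiableAt (by simp)

/-- No corner at an interior point of a minimising broken segment. -/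
theorem no_corner (h : NearExp ε e₀ L) {a b c : M} {s t : ℝ} (hs : 0 < s) (ht : 0 < t)
    (h1 : dist a b = s * dist a c) (h2 : dist b c = t * dist a c) (hst : s + t = 1)
    (hac : dist a c < ε) : s • L b c = -(t • L b a) := by
  have hs1 : s ≤ 1 := by linarith
  have ht1 : t ≤ 1 := by linarith
  have hd0 : 0 ≤ dist a c := dist_nonneg
  have hab : dist b a < ε := by
    rw [dist_comm, h1]
    nlinarith only [hac, hs1, hd0]
  have hbc : dist b c < ε := by
    rw [h2]
    nlinarith only [hac, ht1, hd0]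
  have hda := (smooth_cost_left h hab).mdifferentiableAt (by simp)
  have hdc := (smooth_cost_left h hbc).mdifferentiableAt (by simp)
  -- `t • cost(·, a) + s • cost (·, c)` is minimal at `b`
  have hd : MDifferentiableAt 𝓘(ℝ, E) 𝓘(ℝ, ℝ)
      (t • (fun z : M => cost z a) + s • fun z : M => cost z c) b :=
    (hda.const_smul t).add (hdc.const_smul s)
  have hmin : ∀ z : M, (t • (fun z : M => cost z a) + s • fun z : M => cost z c) b ≤
      (t • (fun z : M => cost z a) + s • fun z : M => cost z c) z := by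
    intro z
    have h3 := cost_ineq a z c hs ht
    have h4 : cost a c / (s + t) * (s * t) = t * cost b a + s * cost b c := by
      unfold cost
      rw [h2, dist_comm b a, h1, hst]
      have : t = 1 - s := by linarith
      rw [this]
      ring
    have h5 := mul_le_mul_of_nonneg_right h3 (mul_pos hs ht).le
    rw [h4, cost_comm a z] at h5
    have h6 : (cost z a / s + cost z c / t) * (s * t) = t * cost z a + s * cost z c := by
      field_simp
    rw [h6] at h5
    simpa only [Pi.add_apply, Pi.smul_apply, smul_eq_mul] using h5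
  have h5 : ∀ ξ : TangentSpace 𝓘(ℝ, E) b, inner ℝ (t • L b a + s • L b c) ξ = 0 := by
    intro ξ
    have h6 := exCanon_mfderiv_min hd hmin ξ
    have h7 : (mfderiv 𝓘(ℝ, E) 𝓘(ℝ, ℝ)
        (t • (fun z : M => cost z a) + s • fun z : M => cost z c) b : E →L[ℝ] ℝ) ξ =
        t * dfun (fun z : M => cost z a) b ξ + s * dfun (fun z : M => cost z c) b ξ := by
      rw [mfderiv_add (hda.const_smul t) (hdc.const_smul s), const_smul_mfderiv hda,
        const_smul_mfderiv hdc]
      rfl
    rw [h6, grad_cost h hab, grad_cost h hbc] at h7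
    have haux : ∀ A B : ℝ, 0 = t * -A + s * -B → t * A + s * B = 0 :=
      fun A B h => by linarith only [h]
    have h8 := haux _ _ h7
    rw [inner_add_left, real_inner_smul_left, real_inner_smul_left]
    exact h8
  have h6 : t • L b a + s • L b c = 0 := inner_self_eq_zero.1 (h5 _)
  exact eq_neg_of_add_eq_zero_right h6

/-- A point which divides a short pair of points is on the geodesic. -/
theorem unique_point (h : NearExp ε e₀ L) {x y z : M} {t : ℝ} (ht : t ∈ Icc (0 : ℝ) 1)
    (hxy : dist x y < ε) (h1 : dist x z = t * dist x y) (h2 : dist z y = (1 - t) * dist x y) :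
    z = e₀ x (t • L x y) := by
  rcases ht.1.eq_or_lt with ht0 | ht0
  · rw [← ht0, zero_mul] at h1
    rw [← ht0, zero_smul, h.exp_zero, dist_eq_zero.1 h1]
  rcases ht.2.eq_or_lt with ht1 | ht1
  · rw [ht1, sub_self, zero_mul] at h2
    rw [ht1, one_smul, h.exp_log x y hxy, dist_eq_zero.1 h2]
  set d : ℝ := dist x y with hd
  have hd0 : 0 ≤ d := dist_nonneg
  have hs : 0 < 1 - t := by linarith
  have hxz : dist x z < ε := by
    rw [h1]
    nlinarith only [hxy, hd0, ht1]
  have hzy : dist z y < ε := by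
    rw [h2]
    nlinarith only [hxy, hd0, ht0]
  -- the extension of the segment from `x` to `z`
  set v : TangentSpace 𝓘(ℝ, E) x := L x z with hv
  have hvn : ‖v‖ = t * d := by rw [hv, h.norm_log x z hxz, h1]
  set w : TangentSpace 𝓘(ℝ, E) x := t⁻¹ • v with hw
  have hwn : ‖w‖ = d := by
    rw [hw, norm_smul, Real.norm_eq_abs, abs_of_pos (inv_pos.2 ht0), hvn]
    field_simp
  have htw : t • w = v := by rw [hw, smul_smul, mul_inv_cancel₀ ht0.ne', one_smul]
  set y' : M := e₀ x w with hy'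
  have hwε : ‖w‖ < ε := by rw [hwn]; exact hxy
  have hz : e₀ x (t • w) = z := by rw [htw, hv, h.exp_log x z hxz]
  have hxy' : dist x y' = d := by rw [hy', h.dist_exp x hwε, hwn]
  have hzy' : dist z y' = (1 - t) * d := by
    have h3 := h.ray x w hwε t ht 1 (right_mem_Icc.2 zero_le_one)
    rw [one_smul, hz, hwn, abs_of_pos hs] at h3
    exact h3
  have c1 := no_corner h ht0 hs h1 h2 (by ring) hxy
  have c2 := no_corner h (a := x) (b := z) (c := y') ht0 hs (by rw [hxy', h1])
    (by rw [hxy', hzy']) (by ring) (by rw [hxy']; exact hxy)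
  have c3 : L z y = L z y' := by
    have c4 : t • L z y = t • L z y' := c1.trans c2.symm
    have c5 := congrArg (fun u => t⁻¹ • u) c4
    simp only [smul_smul, inv_mul_cancel₀ ht0.ne', one_smul] at c5
    exact c5
  have hzy'ε : dist z y' < ε := by rw [hzy', ← h2]; exact hzy
  have hyy : y = y' := by
    have := congrArg (e₀ z) c3
    rwa [h.exp_log z y hzy, h.exp_log z y' hzy'ε] at this
  have hLw : L x y = w := by rw [hyy, hy', h.log_exp x w hwε]
  rw [hLw, hz]

/-- The point of the short geodesic. -/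
theorem dist_point (h : NearExp ε e₀ L) {x y : M} {t : ℝ} (ht : t ∈ Icc (0 : ℝ) 1)
    (hxy : dist x y < ε) : dist x (e₀ x (t • L x y)) = t * dist x y ∧
      dist (e₀ x (t • L x y)) y = (1 - t) * dist x y := by
  have hL : ‖L x y‖ < ε := by rw [h.norm_log x y hxy]; exact hxy
  have h1 := h.ray x (L x y) hL 0 (left_mem_Icc.2 zero_le_one) t ht
  have h2 := h.ray x (L x y) hL t ht 1 (right_mem_Icc.2 zero_le_one)
  rw [zero_smul, h.exp_zero, h.norm_log x y hxy, sub_zero, abs_of_nonneg ht.1] at h1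
  rw [one_smul, h.exp_log x y hxy, h.norm_log x y hxy, abs_of_nonneg (by linarith [ht.2])] at h2
  exact ⟨h1, h2⟩

end Near

/-- Unique short segments. -/
def UniqSeg (M : Type*) [MetricSpace M] (ρ : ℝ) : Prop :=
  ∀ x y : M, dist x y < ρ → ∀ t ∈ Icc (0 : ℝ) 1,
    ∃! z : M, dist x z = t * dist x y ∧ dist z y = (1 - t) * dist x y

section Exist

variable {E : Type*} [NormedAddCommGroup E] [NormedSpace ℝ E] [FiniteDimensional ℝ E]
  {M : Type*} [MetricSpace M] [CompactSpace M] [ChartedSpace E M]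
  [RiemannianBundle (fun x : M => TangentSpace 𝓘(ℝ, E) x)]
  [IsManifold 𝓘(ℝ, E) ∞ M]
  [IsContMDiffRiemannianBundle 𝓘(ℝ, E) ∞ E (fun x : M => TangentSpace 𝓘(ℝ, E) x)]
  [IsRiemannianManifold 𝓘(ℝ, E) M]

/-- Near exponential map of a compact Riemannian manifold. -/
theorem exists_near [Nonempty M] : ∃ (ε : ℝ) (e₀ : ∀ x : M, TangentSpace 𝓘(ℝ, E) x → M)
    (L : ∀ x : M, M → TangentSpace 𝓘(ℝ, E) x), NearExp ε e₀ L :=
  exists_nearExp (E := E) (M := M) fun x₀ => exists_isLocExp x₀

variable (E M) in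
/-- A compact Riemannian manifold has unique short segments, and its squared distance is smooth
near the diagonal. -/
theorem exists_uniqSeg : ∃ ρ : ℝ, 0 < ρ ∧ UniqSeg M ρ ∧ ∀ x y : M, dist x y < ρ →
    ContMDiffAt (𝓘(ℝ, E).prod 𝓘(ℝ, E)) 𝓘(ℝ, ℝ) ∞ (fun q : M × M => dist q.1 q.2 ^ 2) (x, y) := by
  rcases isEmpty_or_nonempty M with hM | hM
  · exact ⟨1, one_pos, fun x => (hM.false x).elim, fun x => (hM.false x).elim⟩
  · obtain ⟨ε, e₀, L, h⟩ := exists_near (E := E) (M := M)
    refine ⟨ε, h.pos, fun x y hxy t ht => ?_, fun x y hxy => smooth_dist_sq h hxy⟩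
    exact ⟨e₀ x (t • L x y), dist_point h ht hxy, fun z hz => unique_point h ht hxy hz.1 hz.2⟩

end Exist

end

end Vale.Agent.P216.Geo
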