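import Vale.Agent.P216.Smooth.Geo

/-!
# The cost in charts: smoothness, derivative and twist condition
-/

set_option maxSynthPendingDepth 3
set_option linter.unusedSectionVars false

open Bundle Manifold Set Filter
open scoped ContDiff Manifold Topology
open Vale.Agent.P234

namespace Vale.Agent.P216.Geo

noncomputable section

variable {E : Type*} [NormedAddCommGroup E] [NormedSpace ℝ E] [FiniteDimensional ℝ E]
  {M : Type*} [MetricSpace M] [ChartedSpace E M]
  [RiemannianBundle (fun x : M => TangentSpace 𝓘(ℝ, E) x)]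
  [IsManifold 𝓘(ℝ, E) ∞ M]
  [IsContMDiffRiemannianBundle 𝓘(ℝ, E) ∞ E (fun x : M => TangentSpace 𝓘(ℝ, E) x)]
  {ε : ℝ} {e₀ : ∀ x : M, TangentSpace 𝓘(ℝ, E) x → M} {L : ∀ x : M, M → TangentSpace 𝓘(ℝ, E) x}

/-- the inverse chart -/
def ich (E : Type*) [NormedAddCommGroup E] [NormedSpace ℝ E] {M : Type*} [MetricSpace M]
    [ChartedSpace E M] (p : M) (u : E) : M := (extChartAt 𝓘(ℝ, E) p).symm u

/-- the cost in the charts at `p` and `q` -/
def cc (E : Type*) [NormedAddCommGroup E] [NormedSpace ℝ E] {M : Type*} [MetricSpace M]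
    [ChartedSpace E M] (p q : M) (w : E × E) : ℝ := cost (ich E p w.1) (ich E q w.2)

/-- the domain on which `cc` is smooth -/
def ccDom (E : Type*) [NormedAddCommGroup E] [NormedSpace ℝ E] {M : Type*} [MetricSpace M]
    [ChartedSpace E M] (ε : ℝ) (p q : M) : Set (E × E) :=
  {w | w.1 ∈ (extChartAt 𝓘(ℝ, E) p).target ∧ w.2 ∈ (extChartAt 𝓘(ℝ, E) q).target ∧
    dist (ich E p w.1) (ich E q w.2) < ε}

theorem contMDiffAt_ich (p : M) {u : E} (hu : u ∈ (extChartAt 𝓘(ℝ, E) p).target) :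
    ContMDiffAt 𝓘(ℝ, E) 𝓘(ℝ, E) ∞ (ich E p) u :=
  (contMDiffOn_extChartAt_symm p).contMDiffAt ((isOpen_extChartAt_target p).mem_nhds hu)

theorem contMDiffAt_pair {p q : M} {w : E × E} (h1 : w.1 ∈ (extChartAt 𝓘(ℝ, E) p).target)
    (h2 : w.2 ∈ (extChartAt 𝓘(ℝ, E) q).target) :
    ContMDiffAt 𝓘(ℝ, E × E) (𝓘(ℝ, E).prod 𝓘(ℝ, E)) ∞
      (fun w : E × E => (ich E p w.1, ich E q w.2)) w := by
  have e1 : ContMDiffAt 𝓘(ℝ, E × E) 𝓘(ℝ, E) ∞ (fun w : E × E => ich E p w.1) w :=
    ContMDiffAt.comp (g := ich E p) (f := fun w : E × E => w.1) w (contMDiffAt_ich p h1)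
      (contDiff_fst.contMDiff.contMDiffAt)
  have e2 : ContMDiffAt 𝓘(ℝ, E × E) 𝓘(ℝ, E) ∞ (fun w : E × E => ich E q w.2) w :=
    ContMDiffAt.comp (g := ich E q) (f := fun w : E × E => w.2) w (contMDiffAt_ich q h2)
      (contDiff_snd.contMDiff.contMDiffAt)
  exact e1.prodMk e2

theorem ccDom_mem_nhds {p q : M} {w : E × E} (hw : w ∈ ccDom E ε p q) : ccDom E ε p q ∈ 𝓝 w := by
  obtain ⟨h1, h2, h3⟩ := hw
  have n1 : ∀ᶠ w' : E × E in 𝓝 w, w'.1 ∈ (extChartAt 𝓘(ℝ, E) p).target :=
    continuous_fst.continuousAt.eventually ((isOpen_extChartAt_target p).mem_nhds h1)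
  have n2 : ∀ᶠ w' : E × E in 𝓝 w, w'.2 ∈ (extChartAt 𝓘(ℝ, E) q).target :=
    continuous_snd.continuousAt.eventually ((isOpen_extChartAt_target q).mem_nhds h2)
  have n3 : ∀ᶠ w' : E × E in 𝓝 w, dist (ich E p w'.1) (ich E q w'.2) < ε :=
    ((continuous_dist.continuousAt).comp (contMDiffAt_pair h1 h2).continuousAt).eventually
      (gt_mem_nhds h3)
  filter_upwards [n1, n2, n3] with w' a b c using ⟨a, b, c⟩

theorem isOpen_ccDom (p q : M) : IsOpen (ccDom E ε p q) :=
  isOpen_iff_mem_nhds.2 fun _ hw => ccDom_mem_nhds hw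

theorem contDiffAt_cc (h : NearExp ε e₀ L) {p q : M} {w : E × E} (hw : w ∈ ccDom E ε p q) :
    ContDiffAt ℝ ∞ (cc E p q) w := by
  obtain ⟨h1, h2, h3⟩ := hw
  rw [← contMDiffAt_iff_contDiffAt]
  exact ContMDiffAt.comp (g := fun q : M × M => cost q.1 q.2)
    (f := fun w : E × E => (ich E p w.1, ich E q w.2)) w (smooth_cost h h3)
    (contMDiffAt_pair h1 h2)

/-- the logarithm in the charts at `p` and `q` -/
def lc (L : ∀ x : M, M → TangentSpace 𝓘(ℝ, E) x) (p q : M) (w : E × E) : E :=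
  crd p (ich E p w.1) (L (ich E p w.1) (ich E q w.2))

theorem contDiffAt_lc (h : NearExp ε e₀ L) {p q : M} {w : E × E} (hw : w ∈ ccDom E ε p q) :
    ContDiffAt ℝ ∞ (lc L p q) w := by
  obtain ⟨h1, h2, h3⟩ := hw
  have hx : ich E p w.1 ∈ (extChartAt 𝓘(ℝ, E) p).source := (extChartAt 𝓘(ℝ, E) p).map_target h1
  have e1 : ContMDiffAt 𝓘(ℝ, E × E) 𝓘(ℝ, E).tangent ∞ (fun w : E × E =>
      (⟨ich E p w.1, L (ich E p w.1) (ich E q w.2)⟩ : TangentBundle 𝓘(ℝ, E) M)) w :=
    ContMDiffAt.comp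
      (g := fun q : M × M => (⟨q.1, L q.1 q.2⟩ : TangentBundle 𝓘(ℝ, E) M))
      (f := fun w : E × E => (ich E p w.1, ich E q w.2)) w (h.smooth_log _ _ h3)
      (contMDiffAt_pair h1 h2)
  have e2 : ContMDiffAt 𝓘(ℝ, E).tangent 𝓘(ℝ, E × E) ∞ (tchart E p)
      (⟨ich E p w.1, L (ich E p w.1) (ich E q w.2)⟩ : TangentBundle 𝓘(ℝ, E) M) := by
    refine (contMDiffOn_tchart p).contMDiffAt ((isOpen_tchart_source p).mem_nhds ?_)
    rw [mem_tchart_source]
    rw [extChartAt_source] at hx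
    exact hx
  have e3 := ContMDiffAt.comp w e2 e1
  have e4 : ContMDiffAt 𝓘(ℝ, E × E) 𝓘(ℝ, E) ∞ (fun w : E × E => ((tchart E p)
      (⟨ich E p w.1, L (ich E p w.1) (ich E q w.2)⟩ : TangentBundle 𝓘(ℝ, E) M)).2) w :=
    ContMDiffAt.comp (g := fun z : E × E => z.2) w (contDiff_snd.contMDiff.contMDiffAt) e3
  rw [contMDiffAt_iff_contDiffAt] at e4
  refine e4.congr_of_eventuallyEq ?_
  have n1 : ∀ᶠ w' : E × E in 𝓝 w, w'.1 ∈ (extChartAt 𝓘(ℝ, E) p).target :=
    continuous_fst.continuousAt.eventually ((isOpen_extChartAt_target p).mem_nhds h1)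
  filter_upwards [n1] with w' hw'
  have h4 := tchart_apply p ((extChartAt 𝓘(ℝ, E) p).map_target hw')
    (L (ich E p w'.1) (ich E q w'.2))
  exact (congrArg Prod.snd h4).symm

set_option backward.isDefEq.respectTransparency false in
/-- The first partial derivative of the cost in charts. -/
theorem fderiv_cc (h : NearExp ε e₀ L) {p q : M} {G : E → E →L[ℝ] E →L[ℝ] ℝ}
    (hG : ∀ c ∈ (extChartAt 𝓘(ℝ, E) p).target, ∀ a b : E,
      G c a b = inner ℝ (dch p c a) (dch p c b)) {w : E × E} (hw : w ∈ ccDom E ε p q) (ξ : E) :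
    fderiv ℝ (cc E p q) w (ξ, 0) = -(G w.1 (lc L p q w) ξ) := by
  obtain ⟨h1, h2, h3⟩ := hw
  have hd : DifferentiableAt ℝ (cc E p q) (w.1, w.2) :=
    (contDiffAt_cc h ⟨h1, h2, h3⟩).differentiableAt (by simp)
  have e1 := fderiv_partial_left (ζ := w.1) (η := w.2) hd ξ
  rw [show ((w.1, w.2) : E × E) = w from rfl] at e1
  rw [e1]
  have e2 := mfderiv_fun_chart p (f := fun z : M => cost z (ich E q w.2)) h1
    ((smooth_cost_left h h3).mdifferentiableAt (by simp)) ξ
  have e3 := grad_cost h h3 (dch p w.1 ξ)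
  have e4 : dfun (fun z : M => cost z (ich E q w.2)) ((extChartAt 𝓘(ℝ, E) p).symm w.1)
      (dch p w.1 ξ) = -(inner ℝ (L (ich E p w.1) (ich E q w.2)) (dch p w.1 ξ)) := e3
  rw [e4] at e2
  have e5 : (fun z : E => cc E p q (z, w.2)) =
      fun c' : E => cost ((extChartAt 𝓘(ℝ, E) p).symm c') (ich E q w.2) := rfl
  rw [e5, ← e2, hG _ h1]
  have e6 : dch p w.1 (lc L p q w) = L (ich E p w.1) (ich E q w.2) :=
    vec_crd p ((extChartAt 𝓘(ℝ, E) p).map_target h1) _
  rw [e6]

set_option backward.isDefEq.respectTransparency false in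
/-- The logarithm is a local diffeomorphism in the second point. -/
theorem lc_injective (h : NearExp ε e₀ L) {p q : M} {w : E × E} (hw : w ∈ ccDom E ε p q) {η : E}
    (h0 : fderiv ℝ (lc L p q) w (0, η) = 0) : η = 0 := by
  have hw' := hw
  obtain ⟨h1, h2, h3⟩ := hw'
  set x : M := ich E p w.1 with hx
  -- the exponential map at `x` in charts
  set X : E → E := fun a => extChartAt 𝓘(ℝ, E) q (e₀ x (dch p w.1 a)) with hX
  have hℓ : dch p w.1 (lc L p q w) = L x (ich E q w.2) :=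
    vec_crd p ((extChartAt 𝓘(ℝ, E) p).map_target h1) _
  have hXd : DifferentiableAt ℝ X (lc L p q w) := by
    have e1 : ContMDiffAt 𝓘(ℝ, E) 𝓘(ℝ, E).tangent ∞
        (fun a : E => (⟨x, dch p w.1 a⟩ : TangentBundle 𝓘(ℝ, E) M)) (lc L p q w) := by
      have e2 : ContMDiffAt 𝓘(ℝ, E) 𝓘(ℝ, E × E) ∞ (fun a : E => ((w.1, a) : E × E))
          (lc L p q w) :=
        ((contDiff_const.prodMk contDiff_id).contMDiff).contMDiffAt
      have e3 : ContMDiffAt 𝓘(ℝ, E × E) 𝓘(ℝ, E).tangent ∞ (tchart E p).symm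
          ((w.1, lc L p q w) : E × E) := by
        refine (contMDiffOn_tchart_symm p).contMDiffAt ((isOpen_tchart_target p).mem_nhds ?_)
        rw [mem_tchart_target]
        rw [extChartAt_target] at h1
        exact h1.1
      refine (ContMDiffAt.comp (lc L p q w) e3 e2).congr_of_eventuallyEq
        (Filter.Eventually.of_forall fun a => ?_)
      exact (tchart_symm_eq p h1 a).symm
    have e4 : ContMDiffAt 𝓘(ℝ, E).tangent 𝓘(ℝ, E) ∞
        (fun p : TangentBundle 𝓘(ℝ, E) M => e₀ p.proj p.snd)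
        (⟨x, dch p w.1 (lc L p q w)⟩ : TangentBundle 𝓘(ℝ, E) M) := by
      refine h.smooth _ ?_
      show ‖dch p w.1 (lc L p q w)‖ < ε
      have : ‖L x (ich E q w.2)‖ < ε := by rw [h.norm_log _ _ h3]; exact h3
      rw [← hℓ] at this
      exact this
    have e5 := ContMDiffAt.comp (lc L p q w) e4 e1
    have e6 : e₀ x (dch p w.1 (lc L p q w)) = ich E q w.2 := by
      have := h.exp_log _ _ h3
      rw [← hℓ] at this
      exact this
    have e7 : ContMDiffAt 𝓘(ℝ, E) 𝓘(ℝ, E) ∞ (extChartAt 𝓘(ℝ, E) q)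
        (e₀ x (dch p w.1 (lc L p q w))) := by
      rw [e6]
      refine contMDiffAt_extChartAt' ?_
      have := (extChartAt 𝓘(ℝ, E) q).map_target h2
      rwa [extChartAt_source] at this
    have e8 := ContMDiffAt.comp (lc L p q w) e7 e5
    have e9 : ContMDiffAt 𝓘(ℝ, E) 𝓘(ℝ, E) ∞ X (lc L p q w) := e8
    rw [contMDiffAt_iff_contDiffAt] at e9
    exact e9.differentiableAt (by simp)
  have hld : DifferentiableAt ℝ (lc L p q) (w.1, w.2) :=
    (contDiffAt_lc h hw).differentiableAt (by simp)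
  have hg : HasFDerivAt (fun v : E => lc L p q (w.1, v))
      ((fderiv ℝ (lc L p q) (w.1, w.2)).comp (ContinuousLinearMap.inr ℝ E E)) w.2 :=
    hld.hasFDerivAt.comp w.2 (hasFDerivAt_prodMk_right w.1 w.2)
  have hcomp : HasFDerivAt (fun v : E => X (lc L p q (w.1, v)))
      ((fderiv ℝ X (lc L p q w)).comp
        ((fderiv ℝ (lc L p q) (w.1, w.2)).comp (ContinuousLinearMap.inr ℝ E E))) w.2 :=
    HasFDerivAt.comp (g := X) w.2 hXd.hasFDerivAt hg
  have hid : (fun v : E => X (lc L p q (w.1, v))) =ᶠ[𝓝 w.2] fun v => v := by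
    have n1 : ∀ᶠ v : E in 𝓝 w.2, ((w.1, v) : E × E) ∈ ccDom E ε p q := by
      have hc : ContinuousAt (fun v : E => ((w.1, v) : E × E)) w.2 := by fun_prop
      exact hc.eventually (ccDom_mem_nhds hw)
    filter_upwards [n1] with v hv
    obtain ⟨-, hv2, hv3⟩ := hv
    have hv2' : v ∈ (extChartAt 𝓘(ℝ, E) q).target := hv2
    have e1 : dch p w.1 (lc L p q (w.1, v)) = L x (ich E q v) :=
      vec_crd p ((extChartAt 𝓘(ℝ, E) p).map_target h1) _
    simp only [hX]
    have e2 : e₀ x (dch p w.1 (lc L p q (w.1, v))) = ich E q v := by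
      have := h.exp_log _ _ hv3
      rw [← hx] at this
      simp only at this
      rw [← e1] at this
      exact this
    rw [e2]
    exact (extChartAt 𝓘(ℝ, E) q).right_inv hv2'
  have hfin := (hasFDerivAt_id w.2).unique (hcomp.congr_of_eventuallyEq hid.symm)
  have := congrArg (fun T : E →L[ℝ] E => T η) hfin
  simp only [ContinuousLinearMap.comp_apply, ContinuousLinearMap.inr_apply] at this
  have h0' : fderiv ℝ (lc L p q) (w.1, w.2) (0, η) = 0 := h0
  rw [h0', map_zero] at this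
  exact this

/-- The mixed second derivative of the cost in charts. -/
theorem mixed_cc (h : NearExp ε e₀ L) {p q : M} {G : E → E →L[ℝ] E →L[ℝ] ℝ}
    (hG : ∀ c ∈ (extChartAt 𝓘(ℝ, E) p).target, ∀ a b : E,
      G c a b = inner ℝ (dch p c a) (dch p c b)) {w : E × E} (hw : w ∈ ccDom E ε p q) (ξ η : E) :
    fderiv ℝ (fderiv ℝ (cc E p q)) w (0, η) (ξ, 0) =
      -(G w.1 (fderiv ℝ (lc L p q) w (0, η)) ξ) := by
  have hcd := contDiffAt_cc h hw
  have hd2 : DifferentiableAt ℝ (fderiv ℝ (cc E p q)) w :=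
    (hcd.fderiv_right (m := ∞) (by simp)).differentiableAt (by simp)
  have hld : DifferentiableAt ℝ (lc L p q) w := (contDiffAt_lc h hw).differentiableAt (by simp)
  -- along the line `v ↦ (w.1, v)`
  have hline : HasFDerivAt (fun v : E => ((w.1, v) : E × E)) (ContinuousLinearMap.inr ℝ E E) w.2 :=
    hasFDerivAt_prodMk_right w.1 w.2
  have e1 : HasFDerivAt (fun v : E => fderiv ℝ (cc E p q) (w.1, v))
      ((fderiv ℝ (fderiv ℝ (cc E p q)) w).comp (ContinuousLinearMap.inr ℝ E E)) w.2 :=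
    HasFDerivAt.comp (g := fderiv ℝ (cc E p q)) (f := fun v : E => ((w.1, v) : E × E)) w.2
      (hd2.hasFDerivAt) hline
  have e2 : HasFDerivAt (fun v : E => fderiv ℝ (cc E p q) (w.1, v) (ξ, 0))
      ((ContinuousLinearMap.apply ℝ ℝ ((ξ, 0) : E × E)).comp
        ((fderiv ℝ (fderiv ℝ (cc E p q)) w).comp (ContinuousLinearMap.inr ℝ E E))) w.2 :=
    (ContinuousLinearMap.apply ℝ ℝ ((ξ, 0) : E × E)).hasFDerivAt.comp w.2 e1
  have e3 : HasFDerivAt (fun v : E => lc L p q (w.1, v))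
      ((fderiv ℝ (lc L p q) w).comp (ContinuousLinearMap.inr ℝ E E)) w.2 :=
    HasFDerivAt.comp (g := lc L p q) (f := fun v : E => ((w.1, v) : E × E)) w.2
      (hld.hasFDerivAt) hline
  have e4 : HasFDerivAt (fun v : E => -(G w.1 (lc L p q (w.1, v)) ξ))
      (-(((G w.1).flip ξ).comp ((fderiv ℝ (lc L p q) w).comp
        (ContinuousLinearMap.inr ℝ E E)))) w.2 :=
    (((G w.1).flip ξ).hasFDerivAt.comp w.2 e3).neg
  have hev : (fun v : E => fderiv ℝ (cc E p q) (w.1, v) (ξ, 0)) =ᶠ[𝓝 w.2]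
      fun v : E => -(G w.1 (lc L p q (w.1, v)) ξ) := by
    have hc : ContinuousAt (fun v : E => ((w.1, v) : E × E)) w.2 := by fun_prop
    filter_upwards [hc.eventually (ccDom_mem_nhds hw)] with v hv
    exact fderiv_cc h hG hv ξ
  have e5 := (e4.congr_of_eventuallyEq hev).unique e2
  have e6 := congrArg (fun T : E →L[ℝ] ℝ => T η) e5
  simp only [neg_apply, ContinuousLinearMap.comp_apply, ContinuousLinearMap.inr_apply,
    ContinuousLinearMap.flip_apply, ContinuousLinearMap.apply_apply] at e6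
  exact e6.symm

/-- **Twist condition** of the squared distance. -/
theorem twist_right (h : NearExp ε e₀ L) {p q : M} {w : E × E} (hw : w ∈ ccDom E ε p q) {η : E}
    (h0 : ∀ ξ : E, fderiv ℝ (fderiv ℝ (cc E p q)) w (0, η) (ξ, 0) = 0) : η = 0 := by
  obtain ⟨G, -, hG⟩ := exists_chart_metric (E := E) p
  refine lc_injective h hw ?_
  set a : E := fderiv ℝ (lc L p q) w (0, η) with ha
  have h1 := mixed_cc h hG hw a η
  rw [h0 a, ← ha, hG _ hw.1] at h1
  have h2 : inner ℝ (dch p w.1 a) (dch p w.1 a) = 0 := by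
    have haux : ∀ r : ℝ, 0 = -r → r = 0 := fun r h => by linarith
    exact haux _ h1
  have h3 : dch p w.1 a = 0 := inner_self_eq_zero.1 h2
  exact dch_injective p hw.1 (h3.trans (map_zero _).symm)

/-- The second derivative is symmetric. -/
theorem symm_cc (h : NearExp ε e₀ L) {p q : M} {w : E × E} (hw : w ∈ ccDom E ε p q)
    (a b : E × E) : fderiv ℝ (fderiv ℝ (cc E p q)) w a b =
      fderiv ℝ (fderiv ℝ (cc E p q)) w b a :=
  ((contDiffAt_cc h hw).isSymmSndFDerivAt (by
    simp only [minSmoothness_of_isRCLikeNormedField]; exact WithTop.coe_le_coe.2 le_top)) a b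

/-- **Twist condition** of the squared distance, in the other variable. -/
theorem twist_left (h : NearExp ε e₀ L) {p q : M} {w : E × E} (hw : w ∈ ccDom E ε p q) {ξ : E}
    (h0 : ∀ η : E, fderiv ℝ (fderiv ℝ (cc E p q)) w (0, η) (ξ, 0) = 0) : ξ = 0 := by
  set T : E →ₗ[ℝ] (E →L[ℝ] ℝ) :=
    { toFun := fun η => (fderiv ℝ (fderiv ℝ (cc E p q)) w (0, η)).comp
        (ContinuousLinearMap.inl ℝ E E)
      map_add' := by
        intro a b
        have : ((0, a + b) : E × E) = (0, a) + (0, b) := by simp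
        rw [this, map_add]
        rfl
      map_smul' := by
        intro c a
        have : ((0, c • a) : E × E) = c • (0, a) := by simp
        rw [this, map_smul]
        rfl } with hT
  have hTa : ∀ η ξ, T η ξ = fderiv ℝ (fderiv ℝ (cc E p q)) w (0, η) (ξ, 0) := fun η ξ => rfl
  have hinj : Function.Injective T := by
    rw [injective_iff_map_eq_zero]
    intro η hη
    refine twist_right h hw fun ξ => ?_
    rw [← hTa, hη]
    rfl
  have hfin : Module.finrank ℝ E = Module.finrank ℝ (E →L[ℝ] ℝ) := by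
    rw [← (LinearMap.toContinuousLinearMap (𝕜 := ℝ) (E := E) (F' := ℝ)).finrank_eq]
    exact (Subspace.dual_finrank_eq (K := ℝ) (V := E)).symm
  have hsurj : Function.Surjective T :=
    (LinearMap.injective_iff_surjective_of_finrank_eq_finrank hfin).1 hinj
  refine (SeparatingDual.eq_zero_iff_forall_dual_eq_zero (R := ℝ) ξ).2 fun φ => ?_
  obtain ⟨η, hη⟩ := hsurj φ
  have h1 := h0 η
  rw [← hTa, hη] at h1
  exact h1

/-- opposite points on a geodesic -/
theorem dist_opposite (h : NearExp ε e₀ L) {x y z : M} (hyz : dist y z < ε / 2)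
    (hL : L y z = -L y x) (hyx : dist y x < ε) : dist x y = dist y z ∧
      dist x z = 2 * dist x y := by
  have hε := h.pos
  have hyz' : dist y z < ε := by linarith
  have h1 : dist x y = dist y z := by
    rw [← h.norm_log y z hyz', hL, norm_neg, h.norm_log y x hyx, dist_comm]
  refine ⟨h1, ?_⟩
  have hn : ‖L y z‖ = dist y z := h.norm_log y z hyz'
  have h2 := h.dist_chn_neg (x := y) (v := L y z) (by rw [hn]; exact hyz') 1 1
    (by rw [hn]; push_cast; linarith) (by rw [hn]; linarith)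
  rw [chn_one, chn_one, h.exp_log y z hyz', hL, neg_neg, h.exp_log y x hyx, norm_neg,
    h.norm_log y x hyx, dist_comm y x] at h2
  push_cast at h2
  linarith

/-- Smooth critical points of the two-step energy are the midpoints. -/
theorem crit_mid (h : NearExp ε e₀ L) {x y z : M} (hxy : dist y x < ε / 2)
    (hyz : dist y z < ε / 2) :
    (∀ ξ : TangentSpace 𝓘(ℝ, E) y, dfun (fun m : M => cost m x) y ξ +
      dfun (fun m : M => cost m z) y ξ = 0) ↔ dist x y = dist y z ∧ dist x z = 2 * dist x y := by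
  have hε := h.pos
  have hxy' : dist y x < ε := by linarith
  have hyz' : dist y z < ε := by linarith
  constructor
  · intro hc
    refine dist_opposite h hyz ?_ hxy'
    have h1 : ∀ ξ : TangentSpace 𝓘(ℝ, E) y, inner ℝ (L y x + L y z) ξ = 0 := by
      intro ξ
      have h2 := hc ξ
      rw [grad_cost h hxy', grad_cost h hyz'] at h2
      rw [inner_add_left]
      linarith
    have h2 : L y x + L y z = 0 := inner_self_eq_zero.1 (h1 _)
    exact eq_neg_of_add_eq_zero_right h2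
  · rintro ⟨h1, h2⟩ ξ
    rw [grad_cost h hxy', grad_cost h hyz', h.corner x y z h1.symm h2 (by
      rw [h2, dist_comm x y]
      linarith), inner_neg_left]
    ring

end

end Vale.Agent.P216.Geo
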